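import Vale.Agent.P281.H22.NC.Rule
import Vale.Agent.P281.H22.HK.Xfer2

/-!
# P281, project T-NC (helper22): forms of top degree and closed holomorphic 2-forms on a
modification of the fibre
-/

open Set Filter Metric Vale.Agent.P272.K
open Vale.Agent.P281.J (HolAt)
open Vale.Agent.P281.H64.Gen (IsSmall2 HartogsStmt)
open scoped Topology ContDiff Manifold ComplexConjugate

set_option linter.unusedSectionVars false

noncomputable section

namespace Vale.Agent.P281.H22.NC

open Vale.Agent.P281.H64.TK Vale.Agent.P281.H64.TK.TS Vale.Agent.P281.H22.TS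
open Vale.Agent.P281.H83.HK
open Vale.Agent.P281.H399.HK (pm pm_pm pm_alt pm_det pm_smul pm_one pm_app dd_pull)
open Vale.Agent.P281.H22.HK (dd_congr)

section
variable {d : ℕ} {E K F : Type} [TopologicalSpace E] [Group K] [MulAction K E]
  [TopologicalSpace F] [ChartedSpace (Cm d) F]
  {S : Sheets d E K} {P : E → F} {N : Set F}

/-! ### Forms of top degree -/

/-- the rule of the forms of top degree -/
def RD (d : ℕ) : Rule d Unit where
  A J := Matrix.of fun _ _ => J.det
  one := by
    ext i j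
    simp
  mul J K := by
    ext i j
    simp [Matrix.mul_apply, mul_comm]
  diff M z h a b := by
    have h1 : (fun u => (M u).det) = fun u => ∑ σ : Equiv.Perm (Fin d),
        ((Equiv.Perm.sign σ : ℤ) : ℂ) * ∏ i, M u (σ i) i := by
      funext u
      rw [Matrix.det_apply']
    show DifferentiableAt ℂ (fun u => (M u).det) z
    rw [h1]
    refine DifferentiableAt.fun_sum fun σ _ => ?_
    exact (differentiableAt_const _).mul (HasFDerivAt.finsetProd (u := Finset.univ)
      (g := fun i u => M u (σ i) i) fun i _ => (h (σ i) i).hasFDerivAt).differentiableAt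

theorem RD_mulVec (J : Matrix (Fin d) (Fin d) ℂ) (s : Unit → ℂ) (a : Unit) :
    ((RD d).A J).mulVec s a = s a * J.det := by
  simp [RD, Matrix.mulVec, dotProduct, mul_comm]

theorem isF_can {s : Chart d F → Cm d → ℂ} (h : IsCan s) :
    (RD d).IsF fun e z (_ : Unit) => s e z := by
  refine ⟨fun e he _ => h.hol e he, fun e he e' he' x hx => ?_⟩
  funext a
  rw [RD_mulVec]
  exact h.change e he e' he' x hx

theorem can_isF {s : Chart d F → Cm d → Unit → ℂ} (h : (RD d).IsF s) :
    IsCan fun e z => s e z () := by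
  refine ⟨fun e he => h.hol e he (), fun e he e' he' x hx => ?_⟩
  have h1 := congrFun (h.change e he e' he' x hx) ()
  rw [RD_mulVec] at h1
  exact h1

theorem isS_hol {s : Fin S.N → Cm d → ℂ} (h : HolD S s) :
    (RD d).IsS S fun j z (_ : Unit) => s j z := by
  refine ⟨fun j _ => h.hol j, fun i j z hz z' hz' θ h1 h2 h3 => ?_⟩
  funext a
  rw [RD_mulVec]
  exact h.change i j z hz z' hz' θ h1 h2 h3

theorem hol_isS {s : Fin S.N → Cm d → Unit → ℂ} (h : (RD d).IsS S s) :
    HolD S fun j z => s j z () := by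
  refine ⟨fun j => h.hol j (), fun i j z hz z' hz' θ h1 h2 h3 => ?_⟩
  have h4 := congrFun (h.change i j z hz z' hz' θ h1 h2 h3) ()
  rw [RD_mulVec] at h4
  exact h4

/-! ### 2-forms -/

/-- the rule of the 2-forms -/
def R2 (d : ℕ) : Rule d (Fin d × Fin d) where
  A J := Matrix.of fun q r => J r.1 q.1 * J r.2 q.2
  one := by
    ext q r
    simp only [Matrix.of_apply, Matrix.one_apply, Prod.ext_iff]
    by_cases h1 : r.1 = q.1
    · by_cases h2 : r.2 = q.2
      · simp [h1, h2]
      · have h3 : ¬ (q.1 = r.1 ∧ q.2 = r.2) := fun h => h2 h.2.symm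
        simp [h2, h3]
    · have h3 : ¬ (q.1 = r.1 ∧ q.2 = r.2) := fun h => h1 h.1.symm
      simp [h1, h3]
  mul J K := by
    ext q r
    simp only [Matrix.of_apply, Matrix.mul_apply, Fintype.sum_prod_type, Finset.sum_mul_sum]
    exact Finset.sum_congr rfl fun a _ => Finset.sum_congr rfl fun b _ => by ring
  diff M z h a b := (h _ _).mul (h _ _)

/-- matrices as vectors -/
def vc (w : Matrix (Fin d) (Fin d) ℂ) (q : Fin d × Fin d) : ℂ := w q.1 q.2

/-- vectors as matrices -/
def mt (v : Fin d × Fin d → ℂ) : Matrix (Fin d) (Fin d) ℂ := Matrix.of fun a b => v (a, b)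

theorem R2_mulVec (J : Matrix (Fin d) (Fin d) ℂ) (v : Fin d × Fin d → ℂ) :
    ((R2 d).A J).mulVec v = vc (pm J (mt v)) := by
  funext q
  simp only [R2, Matrix.mulVec, dotProduct, Matrix.of_apply, vc, pm_app, mt,
    Fintype.sum_prod_type]
  rw [Finset.sum_comm]
  refine Finset.sum_congr rfl fun b _ => ?_
  rw [Finset.sum_mul]
  exact Finset.sum_congr rfl fun a _ => by ring

theorem vc_mt (v : Fin d × Fin d → ℂ) : vc (mt v) = v := rfl

theorem mt_vc (w : Matrix (Fin d) (Fin d) ℂ) : mt (vc w) = w := rfl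

theorem isF_hol2 {s : Chart d F → Cm d → Matrix (Fin d) (Fin d) ℂ} (h : IsHol2 s) :
    (R2 d).IsF fun e z => vc (s e z) := by
  refine ⟨fun e he a => h.hol e he a.1 a.2, fun e he e' he' x hx => ?_⟩
  rw [R2_mulVec, mt_vc]
  exact congrArg vc (h.change e he e' he' x hx)

theorem isS_hol2 {s : Fin S.N → Cm d → Matrix (Fin d) (Fin d) ℂ} (h : Hol2 S s) :
    (R2 d).IsS S fun j z => vc (s j z) := by
  refine ⟨fun j a => h.hol j a.1 a.2, fun i j z hz z' hz' θ h1 h2 h3 => ?_⟩
  rw [R2_mulVec, mt_vc]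
  exact congrArg vc (h.change i j z hz z' hz' θ h1 h2 h3)

variable [IsManifold 𝓘(ℂ, Cm d) ω F]

theorem Mdf.up2_eq (h : Mdf S P N) {s : Chart d F → Cm d → Fin d × Fin d → ℂ}
    (hc : (R2 d).IsF s) {j : Fin S.N} {z : Cm d} (hz : z ∈ ball (0 : Cm d) 3) {e : Chart d F}
    (he : e ∈ atlas (Cm d) F) (hs : P (S.σ j z) ∈ e.source) :
    mt ((R2 d).up S P s j z) = pm (jp S P e j z) (mt (s e (e (P (S.σ j z))))) := by
  rw [h.up_eq hc hz he hs, R2_mulVec, mt_vc]

theorem Mdf.up2_hol (h : Mdf S P N) {s : Chart d F → Cm d → Matrix (Fin d) (Fin d) ℂ}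
    (hc : IsHol2 s) : Hol2 S fun j z => mt ((R2 d).up S P (fun e z => vc (s e z)) j z) := by
  have hF := isF_hol2 hc
  have hS := h.up_isS hF
  refine ⟨fun j k l => hS.hol j (k, l), fun j z hz => ?_, fun j z hz k l m => ?_,
    fun i j z hz z' hz' θ h1 h2 h3 => ?_⟩
  · have he : chartAt (Cm d) (P (S.σ j z)) ∈ atlas (Cm d) F := chart_mem_atlas _ _
    have hs : P (S.σ j z) ∈ (chartAt (Cm d) (P (S.σ j z))).source := mem_chart_source _ _
    rw [h.up2_eq hF hz he hs]
    exact pm_alt (hc.alt _ he _ (OpenPartialHomeomorph.map_source _ hs))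
  · set e := chartAt (Cm d) (P (S.σ j z)) with hedef
    have he : e ∈ atlas (Cm d) F := chart_mem_atlas _ _
    have hs : P (S.σ j z) ∈ e.source := mem_chart_source _ _
    have ht := e.map_source hs
    have hev : ∀ k l, (fun u => mt ((R2 d).up S P (fun e z => vc (s e z)) j u) k l) =ᶠ[𝓝 z]
        fun u => pm (H64.TK.jac (fun u => e (P (S.σ j u))) u) (s e (e (P (S.σ j u)))) k l := by
      intro k l
      filter_upwards [(h.contσ hz).eventually (e.open_source.mem_nhds hs),
        isOpen_ball.mem_nhds hz] with u hu hu3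
      rw [h.up2_eq hF hu3 he hu]
      rfl
    rw [dd_congr (hev k l) m, dd_congr (hev l m) k, dd_congr (hev m k) l]
    exact dd_pull (s := s e) (θ := fun u => e (P (S.σ j u))) (h.fwd j z hz e he hs) rfl
      (fun a b => (hc.hol e he a b).differentiableAt (e.open_target.mem_nhds ht))
      (hc.alt e he _ ht) (hc.closed e he _ ht) k l m
  · have h4 := hS.change i j z hz z' hz' θ h1 h2 h3
    rw [R2_mulVec] at h4
    exact congrArg mt h4

variable [Subsingleton K] [T2Space F]

/-- **Forms of top degree.** -/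
theorem Mdf.h20 (har : HartogsStmt) (h : Mdf S P N) (hF : PgOne d F) : H20One S := by
  have hdense : Dense Nᶜ := H383.Gen.dense_compl_small (H308.Bir.small_of_small2 h.small)
  obtain ⟨s, hs, ⟨e, he, u, hu, hne⟩, huni⟩ := hF
  have hsF := isF_can hs
  refine ⟨fun j z => (RD d).up S P (fun e z (_ : Unit) => s e z) j z (), hol_isS (h.up_isS hsF),
    ?_, ?_⟩
  · -- a point off `N`
    have hopen : ∀ᶠ x in 𝓝 (e.symm u), x ∈ e.source ∧ s e (e x) ≠ 0 := by
      have h1 : ContinuousAt (s e) u :=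
        ((hs.hol e he).differentiableAt (e.open_target.mem_nhds hu)).continuousAt
      have h2 : ContinuousAt (fun x => s e (e x)) (e.symm u) := by
        refine ContinuousAt.comp (g := s e) ?_ (e.continuousAt (e.map_target hu))
        rw [e.right_inv hu]
        exact h1
      refine (e.open_source.eventually_mem (e.map_target hu)).and (h2.eventually_ne ?_)
      rw [e.right_inv hu]
      exact hne
    have h4 : ∃ᶠ y in 𝓝 (e.symm u), y ∈ Nᶜ := mem_closure_iff_frequently.1 (hdense _)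
    obtain ⟨x, hxN, hxe, hx⟩ := (h4.and_eventually hopen).exists
    obtain ⟨ε, rfl⟩ := h.surj x hxN
    obtain ⟨j, z, hz, rfl⟩ : ∃ (j : Fin S.N) (z : Cm d), z ∈ ball (0 : Cm d) 3 ∧ S.σ j z = ε :=
      ⟨_, _, pt_mem S ε, pt_spec S ε⟩
    refine ⟨j, z, hz, ?_⟩
    show (RD d).up S P (fun e z (_ : Unit) => s e z) j z () ≠ 0
    rw [h.up_eq hsF hz he hxe, RD_mulVec]
    exact mul_ne_zero hx (h.jp_ne hz hxN he hxe)
  · intro s' hs'
    obtain ⟨t, ht, -, -, hup⟩ := h.down har (isS_hol hs')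
    obtain ⟨c, hc⟩ := huni (fun e z => t e z ()) (can_isF ht)
    refine ⟨c, fun j z hz => ?_⟩
    have he' : chartAt (Cm d) (P (S.σ j z)) ∈ atlas (Cm d) F := chart_mem_atlas _ _
    have hes : P (S.σ j z) ∈ (chartAt (Cm d) (P (S.σ j z))).source := mem_chart_source _ _
    have h1 := congrFun (hup j z hz) ()
    have h2 : s' j z = (RD d).up S P t j z () := h1
    show s' j z = c * (RD d).up S P (fun e z (_ : Unit) => s e z) j z ()
    rw [h2, h.up_eq ht hz he' hes, h.up_eq hsF hz he' hes, RD_mulVec, RD_mulVec,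
      hc _ he' _ (OpenPartialHomeomorph.map_source _ hes), mul_assoc]

/-- the 2-form on `F` is closed and alternating -/
theorem Mdf.down2 (har : HartogsStmt) (h : Mdf S P N)
    {s : Fin S.N → Cm d → Matrix (Fin d) (Fin d) ℂ} (hc : Hol2 S s) :
    ∃ t : Chart d F → Cm d → Matrix (Fin d) (Fin d) ℂ, IsHol2 t ∧
      ∀ j, ∀ z ∈ ball (0 : Cm d) 3, s j z = mt ((R2 d).up S P (fun e z => vc (t e z)) j z) := by
  have hdense : Dense Nᶜ := H383.Gen.dense_compl_small (H308.Bir.small_of_small2 h.small)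
  have hS := isS_hol2 hc
  obtain ⟨t, ht, han, hoff, hup⟩ := h.down har hS
  -- points of a chart off `N`
  have hfreq : ∀ e ∈ atlas (Cm d) F, ∀ v ∈ e.target,
      ∃ᶠ v' in 𝓝 v, v' ∈ e.target ∧ e.symm v' ∉ N := by
    intro e he v hv
    have h4 : ∃ᶠ y in 𝓝 (e.symm v), y ∈ Nᶜ := mem_closure_iff_frequently.1 (hdense _)
    rw [← e.symm.map_nhds_eq (x := v) hv, frequently_map] at h4
    exact (h4.and_eventually (e.open_target.mem_nhds hv)).mono fun v' hv' => ⟨hv'.2, hv'.1⟩
  have hloc : ∀ e ∈ atlas (Cm d) F, ∀ v ∈ e.target, e.symm v ∉ N →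
      ∃ (j : Fin S.N) (z : Cm d) (κ : Cm d → Cm d), z ∈ ball (0 : Cm d) 3 ∧ AnalyticAt ℂ κ v ∧
        κ v = z ∧ ∀ᶠ v' in 𝓝 v, mt (t e v') = pm (H64.TK.jac κ v') (s j (κ v')) := by
    intro e he v hv hN
    obtain ⟨j, z, κ, hz, -, h1, h2, h3⟩ := h.dn_ev hS he hv hN
    refine ⟨j, z, κ, hz, h1, h2, ?_⟩
    filter_upwards [h3, e.open_target.mem_nhds hv,
      (e.continuousAt_symm hv).eventually (h.small.1.isOpen_compl.mem_nhds hN)] with v' a1 a2 a3
    rw [hoff e he v' a2 a3, a1, R2_mulVec, mt_vc, mt_vc]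
  have han' : ∀ e ∈ atlas (Cm d) F, ∀ k l, ∀ v ∈ e.target,
      AnalyticAt ℂ (fun v => mt (t e v) k l) v := fun e he k l v hv => han e he (k, l) v hv
  refine ⟨fun e v => mt (t e v), ⟨fun e he k l v hv =>
    (han' e he k l v hv).differentiableAt.differentiableWithinAt, fun e he v hv => ?_,
    fun e he v hv k l m => ?_, fun e he e' he' x hx => ?_⟩, fun j z hz => ?_⟩
  · ext k l
    show mt (t e v) l k = - mt (t e v) k l
    refine eq_of_freq (f := fun v => mt (t e v) l k) (g := fun v => - mt (t e v) k l)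
      (han' e he l k v hv).continuousAt (han' e he k l v hv).continuousAt.neg ?_
    refine (hfreq e he v hv).mono ?_
    rintro v' ⟨hv', hN⟩
    obtain ⟨j, z, κ, hz, h1, h2, h3⟩ := hloc e he v' hv' hN
    have h4 := h3.self_of_nhds
    have h5 : (mt (t e v')).transpose = - mt (t e v') := by
      rw [h4]
      refine pm_alt (hc.alt j _ ?_)
      rw [h2]
      exact hz
    exact congrFun (congrFun h5 k) l
  · have hdd : ∀ (a b c : Fin d), ContinuousAt (fun v => dd a (fun v => mt (t e v) b c) v) v := by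
      intro a b c
      have h1 : AnalyticAt ℂ (fun v => fderiv ℂ (fun v => mt (t e v) b c) v) v :=
        (han' e he b c v hv).fderiv
      have h2 := h1.continuousAt.clm_apply
        (continuousAt_const (y := (Pi.single a (1 : ℂ) : Cm d)))
      exact h2
    refine eq_of_freq (f := fun v => dd m (fun z => mt (t e z) k l) v +
      dd k (fun z => mt (t e z) l m) v + dd l (fun z => mt (t e z) m k) v) (g := fun _ => 0)
      (((hdd m k l).add (hdd k l m)).add (hdd l m k)) continuousAt_const ?_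
    refine (hfreq e he v hv).mono ?_
    rintro v' ⟨hv', hN⟩
    obtain ⟨j, z, κ, hz, h1, h2, h3⟩ := hloc e he v' hv' hN
    have hev : ∀ k l, (fun u => mt (t e u) k l) =ᶠ[𝓝 v'] fun u =>
        pm (H64.TK.jac κ u) (s j (κ u)) k l := by
      intro k l
      filter_upwards [h3] with u hu
      rw [hu]
    show dd m (fun z => mt (t e z) k l) v' + dd k (fun z => mt (t e z) l m) v' +
      dd l (fun z => mt (t e z) m k) v' = 0
    rw [dd_congr (hev k l) m, dd_congr (hev l m) k, dd_congr (hev m k) l]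
    exact dd_pull (s := s j) h1 h2
      (fun a b => (hc.hol j a b).differentiableAt (isOpen_ball.mem_nhds hz))
      (hc.alt j z hz) (hc.closed j z hz) k l m
  · have h4 := ht.change e he e' he' x hx
    rw [R2_mulVec] at h4
    exact congrArg mt h4
  · exact congrArg mt (hup j z hz)

/-- **Closed holomorphic 2-forms.** -/
theorem Mdf.gen2 (har : HartogsStmt) (h : Mdf S P N) (hd : 0 < d) (hF : Sympl d F) :
    ∃ s, Gen2 S s ∧ DetNe S s := by
  have hdense : Dense Nᶜ := H383.Gen.dense_compl_small (H308.Bir.small_of_small2 h.small)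
  obtain ⟨s, hs, ⟨e, he, u, hu, hne⟩, huni⟩ := hF
  have hsF := isF_hol2 hs
  have hdet : DetNe S fun j z => mt ((R2 d).up S P (fun e z => vc (s e z)) j z) := by
    have hopen : ∀ᶠ x in 𝓝 (e.symm u), x ∈ e.source ∧ (s e (e x)).det ≠ 0 := by
      have h1 : ContinuousAt (fun v => (s e v).det) u := by
        have h3 : ∀ a b, DifferentiableAt ℂ (fun v => s e v a b) u := fun a b =>
          (hs.hol e he a b).differentiableAt (e.open_target.mem_nhds hu)
        exact ((RD d).diff (fun v => s e v) u h3 () ()).continuousAt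
      have h2 : ContinuousAt (fun x => (s e (e x)).det) (e.symm u) := by
        refine ContinuousAt.comp (g := fun v => (s e v).det) ?_
          (e.continuousAt (e.map_target hu))
        rw [e.right_inv hu]
        exact h1
      refine (e.open_source.eventually_mem (e.map_target hu)).and (h2.eventually_ne ?_)
      rw [e.right_inv hu]
      exact hne
    have h4 : ∃ᶠ y in 𝓝 (e.symm u), y ∈ Nᶜ := mem_closure_iff_frequently.1 (hdense _)
    obtain ⟨x, hxN, hxe, hx⟩ := (h4.and_eventually hopen).exists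
    obtain ⟨ε, rfl⟩ := h.surj x hxN
    obtain ⟨j, z, hz, rfl⟩ : ∃ (j : Fin S.N) (z : Cm d), z ∈ ball (0 : Cm d) 3 ∧ S.σ j z = ε :=
      ⟨_, _, pt_mem S ε, pt_spec S ε⟩
    refine ⟨j, z, hz, ?_⟩
    show (mt ((R2 d).up S P (fun e z => vc (s e z)) j z)).det ≠ 0
    rw [h.up2_eq hsF hz he hxe, pm_det, mt_vc]
    exact mul_ne_zero (pow_ne_zero 2 (h.jp_ne hz hxN he hxe)) hx
  refine ⟨_, ⟨h.up2_hol hs, ?_, fun s' hs' => ?_⟩, hdet⟩
  · obtain ⟨i, z, hz, h1⟩ := hdet
    refine ⟨i, z, hz, fun h2 => h1 ?_⟩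
    have : Nonempty (Fin d) := ⟨⟨0, hd⟩⟩
    show (mt ((R2 d).up S P (fun e z => vc (s e z)) i z)).det = 0
    rw [h2, Matrix.det_zero]
  · obtain ⟨t, ht, hup⟩ := h.down2 har hs'
    obtain ⟨c, hc⟩ := huni t ht
    refine ⟨c, fun j z hz => ?_⟩
    have he' : chartAt (Cm d) (P (S.σ j z)) ∈ atlas (Cm d) F := chart_mem_atlas _ _
    have hes : P (S.σ j z) ∈ (chartAt (Cm d) (P (S.σ j z))).source := mem_chart_source _ _
    rw [hup j z hz, h.up2_eq (isF_hol2 ht) hz he' hes, h.up2_eq hsF hz he' hes, mt_vc, mt_vc,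
      hc _ he' _ (OpenPartialHomeomorph.map_source _ hes), pm_smul]

end

end Vale.Agent.P281.H22.NC
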