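import Vale.Agent.P281.H22.NC.Mdf
import Vale.Agent.P281.H22.TS.FibK
import Vale.Agent.P281.H603.K.KodN0

/-!
# P281, project T-NC (helper22): the lift `P : E → F` of a modification is a modification
-/

open Set Filter Metric Vale.Agent.P272.K
open Vale.Agent.P281.H64.Gen (IsSmall2 HartogsStmt excSet)
open scoped Topology ContDiff Manifold ComplexConjugate

set_option linter.unusedSectionVars false

noncomputable section

namespace Vale.Agent.P281.H22.NC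

open Vale.Agent.P281.H64.TK Vale.Agent.P281.H64.TK.TS Vale.Agent.P281.H22.TS
open Vale.Agent.P281.H603.K Vale.Agent.P281.H603.KodN
open Vale.Agent.P281.H125.Fib Vale.Agent.P281.H969.K.FibN
open Vale.Agent.P281.H603.TE (sub rep idx ccs')

attribute [local instance] ccs'

section
variable {n d : ℕ} {X X₁ F E Γ : Type} [TopologicalSpace X] [ChartedSpace (Cm n) X]
  [IsManifold 𝓘(ℂ, Cm n) ω X] [TopologicalSpace X₁] [ChartedSpace (Cm n) X₁]
  [IsManifold 𝓘(ℂ, Cm n) ω X₁] [TopologicalSpace F] [ChartedSpace (Cm d) F]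
  [IsManifold 𝓘(ℂ, Cm d) ω F] [TopologicalSpace E] [Group Γ] [MulAction Γ E]
  [ContinuousConstSMul Γ E] {S : Sheets d E Γ} {Q : E → X₁} {u : X₁ → X} {i : F → X} {P : E → F}

/-- the exceptional set is nowhere dense in the fibre -/
theorem dense_of [PreconnectedSpace E] (h : QD n S Q) (hu : Mod0 (n := n) u)
    (hne : ∃ ε, Q ε ∉ excSet (Cm n) u) : Dense {ε | Q ε ∉ excSet (Cm n) u} := by
  set A : Set E := interior {ε | Q ε ∈ excSet (Cm n) u} with hA
  have hAo : IsOpen A := isOpen_interior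
  have hAc : IsClosed A := by
    rw [← closure_subset_iff_isClosed]
    intro ε₀ hε₀
    obtain ⟨γ, j, z, hz, rfl⟩ := S.cover ε₀
    have hz3 := Sh.mem3 hz
    have hQγ : ∀ ε, Q (γ • ε) = Q ε := fun ε => ((h.Qeq _ _).2 ⟨γ, rfl⟩).symm
    obtain ⟨R, hR, hRe⟩ := exc_local (u := u) (z₀ := Q (S.σ j z)) hu.hol
    have hg : AnalyticAt ℂ (fun w => R (Q (S.σ j w))) z := by
      have h1 : ContMDiffAt 𝓘(ℂ, Cm n) 𝓘(ℂ, ℂ) ω R (Q (S.σ j z)) := hR
      have h2 : ContMDiffAt 𝓘(ℂ, Cm d) 𝓘(ℂ, ℂ) ω (fun w => R (Q (S.σ j w))) z :=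
        ContMDiffAt.comp (g := R) z h1 (h.hol j z hz3)
      exact (contMDiffAt_iff_contDiffAt.1 h2).analyticAt
    have hcont : ContinuousAt (fun w => Q (S.σ j w)) z := (h.hol j z hz3).continuousAt
    have hev : ∀ᶠ w in 𝓝 z, AnalyticAt ℂ (fun w => R (Q (S.σ j w))) w ∧
        (Q (S.σ j w) ∈ excSet (Cm n) u ↔ R (Q (S.σ j w)) = 0) ∧ w ∈ ball (0 : Cm d) 3 :=
      hg.eventually_analyticAt.and ((hcont.eventually hRe).and (isOpen_ball.mem_nhds hz3))
    obtain ⟨r, hr, hball⟩ := Metric.eventually_nhds_iff_ball.1 hev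
    have h4 : ∃ᶠ ε in 𝓝 (γ • S.σ j z), ε ∈ A := mem_closure_iff_frequently.1 hε₀
    rw [← Sh.map_nhds_smul S γ j hz3, frequently_map] at h4
    obtain ⟨w, hwA, hw⟩ := (h4.and_eventually (isOpen_ball.mem_nhds (mem_ball_self hr))).exists
    have hwc : ContinuousAt (fun w => γ • S.σ j w) w := by
      have h5 := Sh.map_nhds_smul S γ j (hball w hw).2.2
      exact h5.le
    have h0 : (fun w => R (Q (S.σ j w))) =ᶠ[𝓝 w] 0 := by
      filter_upwards [hwc.eventually (hAo.mem_nhds hwA), isOpen_ball.mem_nhds hw] with w' a1 a2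
      have a0 : γ • S.σ j w' ∈ {ε : E | Q ε ∈ excSet (Cm n) u} := interior_subset a1
      have a3 : Q (γ • S.σ j w') ∈ excSet (Cm n) u := a0
      rw [hQγ] at a3
      exact (hball w' a2).2.1.1 a3
    have hzero : EqOn (fun w => R (Q (S.σ j w))) 0 (ball z r) :=
      AnalyticOnNhd.eqOn_zero_of_preconnected_of_eventuallyEq_zero
        (fun w' hw' => (hball w' hw').1) (convex_ball z r).isPreconnected hw h0
    rw [hA, mem_interior_iff_mem_nhds, ← Sh.map_nhds_smul S γ j hz3, mem_map]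
    filter_upwards [isOpen_ball.mem_nhds (mem_ball_self hr)] with w' hw'
    show Q (γ • S.σ j w') ∈ excSet (Cm n) u
    rw [hQγ]
    exact (hball w' hw').2.1.2 (hzero hw')
  have hAe : A = ∅ := by
    rcases isClopen_iff.1 ⟨hAc, hAo⟩ with h1 | h1
    · exact h1
    · exfalso
      obtain ⟨ε, hε⟩ := hne
      have h2 : ε ∈ A := by rw [h1]; trivial
      have h3 : ε ∈ {ε : E | Q ε ∈ excSet (Cm n) u} := interior_subset h2
      exact hε h3
  have h5 := interior_eq_empty_iff_dense_compl.1 hAe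
  exact h5

/-- **The lift of a modification.** -/
theorem mdf_of [T2Space F] [Nonempty F] [PreconnectedSpace E] (h : QD n S Q)
    (hu : Mod0 (n := n) u) (ihol : ContMDiff 𝓘(ℂ, Cm d) 𝓘(ℂ, Cm n) ω i)
    (imm : ∀ x, Function.Injective (mfderiv 𝓘(ℂ, Cm d) 𝓘(ℂ, Cm n) i x)) (hPc : Continuous P)
    (hP : ∀ ε, i (P ε) = u (Q ε))
    (hsmall : IsSmall2 (Cm d) (i ⁻¹' (u '' excSet (Cm n) u)))
    (hr : ∀ z x, u z = i x → z ∈ range Q) (hloc : ∀ x, ∃ U ∈ 𝓝 x, InjOn i U)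
    (hinj : ∀ ε ε', P ε = P ε' → Q ε ∉ excSet (Cm n) u → ε = ε')
    (hsurj : ∀ x, i x ∉ u '' excSet (Cm n) u → ∃ ε, P ε = x) (K : Subgroup Γ) [K.FiniteIndex] :
    Mdf (sub S K) P (i ⁻¹' (u '' excSet (Cm n) u)) := by
  have hM : IsManifold 𝓘(ℂ, Cm d) 1 F := IsManifold.of_le (n := ω) le_top
  have hQσ : ∀ j y, Q ((sub S K).σ j y) = Q (S.σ (idx K S.N j).1 y) := fun j y =>
    ((h.Qeq _ _).2 ⟨rep K (idx K S.N j).2, rfl⟩).symm
  have hcont : ∀ j, ∀ z ∈ ball (0 : Cm d) 3, ContinuousAt (fun u => P ((sub S K).σ j u)) z :=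
    fun j z hz => hPc.continuousAt.comp ((sub S K).map_nhds j z hz).le
  have hmem : ∀ ε, P ε ∈ i ⁻¹' (u '' excSet (Cm n) u) ↔ Q ε ∈ excSet (Cm n) u := fun ε => by
    rw [mem_preimage, hP, hu.mem_image]
  have hdense : Dense (i ⁻¹' (u '' excSet (Cm n) u))ᶜ :=
    H383.Gen.dense_compl_small (H308.Bir.small_of_small2 hsmall)
  refine ⟨hPc, hsmall, ?_, fun ε ε' h1 h2 => hinj ε ε' h1 fun h3 => h2 ((hmem ε).2 h3),
    fun x hx => hsurj x hx, fun j z hz e he hs => ?_, fun j z hz hN e he hs => ?_⟩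
  · -- density
    have hne : ∃ ε, Q ε ∉ excSet (Cm n) u := by
      obtain ⟨x, hx⟩ := hdense.nonempty
      obtain ⟨ε, rfl⟩ := hsurj x hx
      exact ⟨ε, fun h3 => hx ((hmem ε).2 h3)⟩
    refine (dense_of h hu hne).mono fun ε hε => ?_
    intro hcon
    exact hε ((hmem ε).1 hcon)
  · -- `e ∘ P ∘ σ j` is holomorphic
    have hopen : ∃ U : Set (Cm d), IsOpen U ∧ z ∈ U ∧ ∀ u ∈ U, u ∈ ball (0 : Cm d) 3 ∧
        P ((sub S K).σ j u) ∈ e.source := by
      have h1 : ∀ᶠ u in 𝓝 z, u ∈ ball (0 : Cm d) 3 ∧ P ((sub S K).σ j u) ∈ e.source :=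
        (isOpen_ball.eventually_mem hz).and
          ((hcont j z hz).eventually (e.open_source.mem_nhds hs))
      obtain ⟨U, hU, hUo, hzU⟩ := _root_.mem_nhds_iff.1 h1
      exact ⟨U, hUo, hzU, fun u hu => hU hu⟩
    obtain ⟨U, hUo, hzU, hU⟩ := hopen
    refine MF.analyticAt_of_differentiableOn hUo (fun u' hu' => ?_) hzU
    obtain ⟨hu3, hus⟩ := hU u' hu'
    have h2 : MDifferentiableAt 𝓘(ℂ, Cm d) 𝓘(ℂ, Cm d) (fun y => P ((sub S K).σ j y)) u' := by
      refine mdiff_lift (n := n) (i := i) (w := fun y => u (Q (S.σ (idx K S.N j).1 y)))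
        (ihol _) (imm _) (hcont j u' hu3) ?_ fun y => ?_
      · have h4 : ContMDiffAt 𝓘(ℂ, Cm n) 𝓘(ℂ, Cm n) ω u (Q (S.σ (idx K S.N j).1 u')) := hu.hol _
        exact (ContMDiffAt.comp (g := u) u' h4 (h.hol _ u' hu3)).mdifferentiableAt (by simp)
      · show i (P ((sub S K).σ j y)) = _
        rw [hP, hQσ]
    have h3 : MDifferentiableAt 𝓘(ℂ, Cm d) 𝓘(ℂ, Cm d) e (P ((sub S K).σ j u')) :=
      mdifferentiableAt_atlas he hus
    exact (HasMFDerivAt.comp u' h3.hasMFDerivAt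
      h2.hasMFDerivAt).hasFDerivAt.differentiableAt.differentiableWithinAt
  · -- the inverse
    obtain ⟨ζ, h1, h2, h3⟩ := h.coord (idx K S.N j).1 z hz
    have hx₀ : e.symm (e (P ((sub S K).σ j z))) = P ((sub S K).σ j z) := e.left_inv hs
    have hi₀ : i (e.symm (e (P ((sub S K).σ j z)))) = u (Q (S.σ (idx K S.N j).1 z)) := by
      rw [hx₀, hP, hQσ]
    have hz₁ : Q (S.σ (idx K S.N j).1 z) ∉ excSet (Cm n) u := by
      rw [← hQσ]
      exact fun hcon => hN ((hmem _).2 hcon)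
    set v₀ := e (P ((sub S K).σ j z)) with hv₀
    have hvt : v₀ ∈ e.target := e.map_source hs
    have hsymm := symm_at he hvt
    have hie : ContMDiffAt 𝓘(ℂ, Cm d) 𝓘(ℂ, Cm n) ω (fun v => i (e.symm v)) v₀ :=
      ContMDiffAt.comp v₀ (ihol _) hsymm
    have h1' : ContMDiffAt 𝓘(ℂ, Cm n) 𝓘(ℂ, Cm d) ω (fun y => ζ (inv0 hu y)) (i (e.symm v₀)) := by
      rw [hi₀]
      exact holV_of_inv0 hu hz₁ h1
    have hκ : ContMDiffAt 𝓘(ℂ, Cm d) 𝓘(ℂ, Cm d) ω (fun v => ζ (inv0 hu (i (e.symm v)))) v₀ :=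
      ContMDiffAt.comp (g := fun y => ζ (inv0 hu y)) v₀ h1' hie
    have hκ0 : ζ (inv0 hu (i (e.symm v₀))) = z := by rw [hi₀, inv0_u hu hz₁, h2]
    refine ⟨fun v => ζ (inv0 hu (i (e.symm v))), (contMDiffAt_iff_contDiffAt.1 hκ).analyticAt,
      hκ0, ?_⟩
    have hinvt : Tendsto (fun v => inv0 hu (i (e.symm v))) (𝓝 v₀)
        (𝓝 (Q (S.σ (idx K S.N j).1 z))) := by
      refine (tendsto_inv0 hu hz₁).comp ?_
      have h5 := hie.continuousAt.tendsto
      rw [hi₀] at h5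
      exact h5
    have a3 := hinvt.eventually h3
    obtain ⟨U, hU, hUi⟩ := hloc (P ((sub S K).σ j z))
    have a4 : ∀ᶠ v in 𝓝 v₀, e.symm v ∈ U := by
      refine (e.continuousAt_symm hvt).eventually (p := fun x => x ∈ U) ?_
      rw [hx₀]
      exact hU
    have a5 : ∀ᶠ v in 𝓝 v₀, P ((sub S K).σ j (ζ (inv0 hu (i (e.symm v))))) ∈ U := by
      have h6 : ContinuousAt (fun v => P ((sub S K).σ j (ζ (inv0 hu (i (e.symm v)))))) v₀ := by
        refine ContinuousAt.comp (g := fun y => P ((sub S K).σ j y)) ?_ hκ.continuousAt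
        rw [hκ0]
        exact hcont j z hz
      refine h6.eventually (p := fun x => x ∈ U) ?_
      show U ∈ 𝓝 (P ((sub S K).σ j (ζ (inv0 hu (i (e.symm v₀))))))
      rw [hκ0]
      exact hU
    filter_upwards [a3, a4, a5] with v c3 c4 c5
    have d1 : inv0 hu (i (e.symm v)) ∈ range Q := hr _ (e.symm v) (u_inv0 hu _)
    have d2 := c3 d1
    refine hUi c5 c4 ?_
    rw [hP, hQσ, d2, u_inv0 hu]

end

end Vale.Agent.P281.H22.NC
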