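import Vale.Agent.P281.H22.TS.Xfer
import Vale.Agent.P281.H64.Gen.SpecN
import Vale.Agent.P281.H383.Gen.Ext
import Vale.Agent.P281.H308.Bir.Main

/-!
# P281, project T-NC (helper22): holomorphic forms on a modification of the fibre

`P : E → F` is a modification of the manifold `F`. The holomorphic tensors on `E` are the
pull-backs of those on `F` (Hartogs). A kind of tensors is given by a rule `A` for the change of
coordinates.
-/

open Set Filter Metric Vale.Agent.P272.K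
open Vale.Agent.P281.J (HolAt)
open Vale.Agent.P281.H64.Gen (IsSmall2 HartogsStmt)
open scoped Topology ContDiff Manifold ComplexConjugate

set_option linter.unusedSectionVars false

noncomputable section

namespace Vale.Agent.P281.H22.NC

open Vale.Agent.P281.H64.TK Vale.Agent.P281.H64.TK.TS Vale.Agent.P281.H22.TS

/-! ### Tools -/

theorem eq_of_freq {X : Type} [TopologicalSpace X] {f g : X → ℂ} {x : X} (hf : ContinuousAt f x)
    (hg : ContinuousAt g x) (h : ∃ᶠ y in 𝓝 x, f y = g y) : f x = g x := by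
  by_contra hne
  have h1 : ∀ᶠ y in 𝓝 x, f y - g y ≠ 0 := (hf.sub hg).eventually_ne (sub_ne_zero.2 hne)
  exact h (h1.mono fun y hy hy' => hy (sub_eq_zero.2 hy'))

section charts
variable {d : ℕ} {F : Type} [TopologicalSpace F] [ChartedSpace (Cm d) F]
  [IsManifold 𝓘(ℂ, Cm d) ω F]

theorem chart_at {e : Chart d F} (he : e ∈ atlas (Cm d) F) {x : F} (hx : x ∈ e.source) :
    ContMDiffAt 𝓘(ℂ, Cm d) 𝓘(ℂ, Cm d) ω e x :=
  contMDiffAt_of_mem_maximalAtlas (IsManifold.subset_maximalAtlas he) hx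

theorem symm_at {e : Chart d F} (he : e ∈ atlas (Cm d) F) {v : Cm d} (hv : v ∈ e.target) :
    ContMDiffAt 𝓘(ℂ, Cm d) 𝓘(ℂ, Cm d) ω e.symm v :=
  contMDiffAt_symm_of_mem_maximalAtlas (IsManifold.subset_maximalAtlas he) hv

/-- the change of charts is analytic -/
theorem change_an {e e' : Chart d F} (he : e ∈ atlas (Cm d) F) (he' : e' ∈ atlas (Cm d) F) {x : F}
    (hx : x ∈ e.source) (hx' : x ∈ e'.source) : AnalyticAt ℂ (fun u => e' (e.symm u)) (e x) := by
  have h1 : ContMDiffAt 𝓘(ℂ, Cm d) 𝓘(ℂ, Cm d) ω e' (e.symm (e x)) := by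
    rw [e.left_inv hx]
    exact chart_at he' hx'
  have h2 : ContMDiffAt 𝓘(ℂ, Cm d) 𝓘(ℂ, Cm d) ω (fun u => e' (e.symm u)) (e x) :=
    ContMDiffAt.comp (e x) h1 (symm_at he (e.map_source hx))
  exact (contMDiffAt_iff_contDiffAt.1 h2).analyticAt

theorem holAt_of {e : Chart d F} (he : e ∈ atlas (Cm d) F) {x : F} (hx : x ∈ e.source) {g : F → ℂ}
    {V : Set (Cm d)} (hV : IsOpen V) (hxV : e x ∈ V)
    (hg : ∀ v ∈ V, DifferentiableAt ℂ (fun v => g (e.symm v)) v) : HolAt (Cm d) g x := by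
  have h1 : AnalyticAt ℂ (fun v => g (e.symm v)) (e x) :=
    MF.analyticAt_of_differentiableOn hV (fun v hv => (hg v hv).differentiableWithinAt) hxV
  have h2 : ContMDiffAt 𝓘(ℂ, Cm d) 𝓘(ℂ, ℂ) ω (fun v => g (e.symm v)) (e x) :=
    h1.contDiffAt.contMDiffAt
  have h3 : ContMDiffAt 𝓘(ℂ, Cm d) 𝓘(ℂ, ℂ) ω (fun y => g (e.symm (e y))) x :=
    ContMDiffAt.comp (g := fun v => g (e.symm v)) x h2 (chart_at he hx)
  refine h3.congr_of_eventuallyEq ?_
  filter_upwards [e.open_source.mem_nhds hx] with y hy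
  rw [e.left_inv hy]

theorem diff_of_holAt {e : Chart d F} (he : e ∈ atlas (Cm d) F) {v : Cm d} (hv : v ∈ e.target)
    {g : F → ℂ} (hg : HolAt (Cm d) g (e.symm v)) :
    AnalyticAt ℂ (fun v => g (e.symm v)) v := by
  have h1 : ContMDiffAt 𝓘(ℂ, Cm d) 𝓘(ℂ, ℂ) ω g (e.symm v) := hg
  have h3 : ContMDiffAt 𝓘(ℂ, Cm d) 𝓘(ℂ, ℂ) ω (fun v => g (e.symm v)) v :=
    ContMDiffAt.comp (g := g) v h1 (symm_at he hv)
  exact (contMDiffAt_iff_contDiffAt.1 h3).analyticAt

end charts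

theorem jac_entry {d : ℕ} {v : Cm d → Cm d} {z : Cm d} (hv : AnalyticAt ℂ v z) (k l : Fin d) :
    AnalyticAt ℂ (fun y => H64.TK.jac v y k l) z :=
  (((ContinuousLinearMap.proj (R := ℂ) (φ := fun _ : Fin d => ℂ) k).comp
    (ContinuousLinearMap.apply ℂ (Cm d) (Pi.single l (1 : ℂ) : Cm d))).analyticAt _).comp hv.fderiv

/-! ### Rules -/

/-- A kind of tensors with `ι` coefficients. -/
structure Rule (d : ℕ) (ι : Type) [Fintype ι] [DecidableEq ι] where
  A : Matrix (Fin d) (Fin d) ℂ → Matrix ι ι ℂ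
  one : A 1 = 1
  mul : ∀ J K, A (J * K) = A K * A J
  diff : ∀ (M : Cm d → Matrix (Fin d) (Fin d) ℂ) (z : Cm d),
    (∀ k l, DifferentiableAt ℂ (fun u => M u k l) z) →
      ∀ a b, DifferentiableAt ℂ (fun u => A (M u) a b) z

section rules
variable {d : ℕ} {ι : Type} [Fintype ι] [DecidableEq ι] {E K F : Type} [TopologicalSpace E]
  [Group K] [MulAction K E] [TopologicalSpace F] [ChartedSpace (Cm d) F]

/-- tensors on `F` -/
structure Rule.IsF (R : Rule d ι) (s : Chart d F → Cm d → ι → ℂ) : Prop where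
  hol : ∀ e ∈ atlas (Cm d) F, ∀ a, DifferentiableOn ℂ (fun z => s e z a) e.target
  change : ∀ e ∈ atlas (Cm d) F, ∀ e' ∈ atlas (Cm d) F, ∀ x ∈ e.source ∩ e'.source,
    s e (e x) = (R.A (H64.TK.jac (fun u => e' (e.symm u)) (e x))).mulVec (s e' (e' x))

/-- tensors on `E` -/
structure Rule.IsS (R : Rule d ι) (S : Sheets d E K) (s : Fin S.N → Cm d → ι → ℂ) : Prop where
  hol : ∀ j a, DifferentiableOn ℂ (fun z => s j z a) (ball 0 3)
  change : ∀ i j, ∀ z ∈ ball (0 : Cm d) 3, ∀ z' ∈ ball (0 : Cm d) 3, ∀ θ : Cm d → Cm d,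
    AnalyticAt ℂ θ z → θ z = z' → (∀ᶠ u in 𝓝 z, S.σ i u = S.σ j (θ u)) →
      s i z = (R.A (H64.TK.jac θ z)).mulVec (s j z')

/-- `P : E → F` is a modification: an isomorphism over the complement of `N`, which is of
codimension two. -/
structure Mdf (S : Sheets d E K) (P : E → F) (N : Set F) : Prop where
  cont : Continuous P
  small : IsSmall2 (Cm d) N
  dense : Dense (P ⁻¹' N)ᶜ
  inj : ∀ e e', P e = P e' → P e ∉ N → e = e'
  surj : ∀ x, x ∉ N → ∃ e, P e = x
  fwd : ∀ j, ∀ z ∈ ball (0 : Cm d) 3, ∀ e ∈ atlas (Cm d) F, P (S.σ j z) ∈ e.source →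
    AnalyticAt ℂ (fun u => e (P (S.σ j u))) z
  bwd : ∀ j, ∀ z ∈ ball (0 : Cm d) 3, P (S.σ j z) ∉ N → ∀ e ∈ atlas (Cm d) F,
    P (S.σ j z) ∈ e.source →
    ∃ κ : Cm d → Cm d, AnalyticAt ℂ κ (e (P (S.σ j z))) ∧ κ (e (P (S.σ j z))) = z ∧
      ∀ᶠ v in 𝓝 (e (P (S.σ j z))), P (S.σ j (κ v)) = e.symm v

/-- the Jacobian matrix of `e ∘ P ∘ σ j` -/
def jp (S : Sheets d E K) (P : E → F) (e : Chart d F) (j : Fin S.N) (z : Cm d) :
    Matrix (Fin d) (Fin d) ℂ :=
  H64.TK.jac (fun u => e (P (S.σ j u))) z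

/-- the pull-back of a tensor to `E` -/
def Rule.up (R : Rule d ι) (S : Sheets d E K) (P : E → F) (s : Chart d F → Cm d → ι → ℂ)
    (j : Fin S.N) (z : Cm d) : ι → ℂ :=
  (R.A (jp S P (chartAt (Cm d) (P (S.σ j z))) j z)).mulVec
    (s (chartAt (Cm d) (P (S.σ j z))) (chartAt (Cm d) (P (S.σ j z)) (P (S.σ j z))))

variable [IsManifold 𝓘(ℂ, Cm d) ω F] {S : Sheets d E K} {P : E → F} {N : Set F} {R : Rule d ι}

theorem Mdf.contσ (h : Mdf S P N) {j : Fin S.N} {z : Cm d} (hz : z ∈ ball (0 : Cm d) 3) :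
    ContinuousAt (fun u => P (S.σ j u)) z :=
  h.cont.continuousAt.comp (S.map_nhds j z hz).le

/-- change of the chart -/
theorem Mdf.jp_chart (h : Mdf S P N) {j : Fin S.N} {z : Cm d} (hz : z ∈ ball (0 : Cm d) 3)
    {e e' : Chart d F} (he : e ∈ atlas (Cm d) F) (hs : P (S.σ j z) ∈ e.source)
    (he' : e' ∈ atlas (Cm d) F) (hs' : P (S.σ j z) ∈ e'.source) :
    jp S P e' j z = H64.TK.jac (fun u => e' (e.symm u)) (e (P (S.σ j z))) * jp S P e j z := by
  have h5 := change_an he he' hs hs'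
  have h7 : (fun u => e' (P (S.σ j u))) =ᶠ[𝓝 z] fun u => e' (e.symm (e (P (S.σ j u)))) := by
    filter_upwards [(h.contσ hz).eventually (e.open_source.mem_nhds hs)] with u hu
    rw [e.left_inv hu]
  show H64.TK.jac (fun u => e' (P (S.σ j u))) z = _
  rw [jac_congr h7, jac_comp (η := fun u => e' (e.symm u)) rfl h5.differentiableAt
    (h.fwd j z hz e he hs).differentiableAt]
  rfl

/-- change of the sheet -/
theorem Mdf.jp_sheet (h : Mdf S P N) {i j : Fin S.N} {z z' : Cm d}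
    (hz' : z' ∈ ball (0 : Cm d) 3) {e : Chart d F} (he : e ∈ atlas (Cm d) F)
    (hs : P (S.σ j z') ∈ e.source) {θ : Cm d → Cm d} (h1 : AnalyticAt ℂ θ z) (h2 : θ z = z')
    (h3 : ∀ᶠ u in 𝓝 z, S.σ i u = S.σ j (θ u)) :
    jp S P e i z = jp S P e j z' * H64.TK.jac θ z := by
  have h4 : (fun u => e (P (S.σ i u))) =ᶠ[𝓝 z] fun u => e (P (S.σ j (θ u))) := by
    filter_upwards [h3] with u hu
    rw [hu]
  show H64.TK.jac (fun u => e (P (S.σ i u))) z = _
  rw [jac_congr h4, jac_comp (η := fun u => e (P (S.σ j u))) h2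
    (h.fwd j z' hz' e he hs).differentiableAt h1.differentiableAt]
  rfl

theorem Mdf.up_eq (h : Mdf S P N) {s : Chart d F → Cm d → ι → ℂ} (hc : R.IsF s) {j : Fin S.N}
    {z : Cm d} (hz : z ∈ ball (0 : Cm d) 3) {e : Chart d F} (he : e ∈ atlas (Cm d) F)
    (hs : P (S.σ j z) ∈ e.source) :
    R.up S P s j z = (R.A (jp S P e j z)).mulVec (s e (e (P (S.σ j z)))) := by
  have h0 : chartAt (Cm d) (P (S.σ j z)) ∈ atlas (Cm d) F := chart_mem_atlas _ _
  have hs0 : P (S.σ j z) ∈ (chartAt (Cm d) (P (S.σ j z))).source := mem_chart_source _ _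
  rw [Rule.up, hc.change _ h0 e he _ ⟨hs0, hs⟩, Matrix.mulVec_mulVec, ← R.mul,
    ← h.jp_chart hz h0 hs0 he hs]

theorem diff_mulVec {M : Cm d → Matrix ι ι ℂ} {s : Cm d → ι → ℂ} {z : Cm d}
    (hM : ∀ a b, DifferentiableAt ℂ (fun u => M u a b) z)
    (hs : ∀ a, DifferentiableAt ℂ (fun u => s u a) z) (a : ι) :
    DifferentiableAt ℂ (fun u => (M u).mulVec (s u) a) z := by
  simp only [Matrix.mulVec, dotProduct]
  exact DifferentiableAt.fun_sum fun b _ => (hM a b).mul (hs b)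

/-- **up** -/
theorem Mdf.up_isS (h : Mdf S P N) {s : Chart d F → Cm d → ι → ℂ} (hc : R.IsF s) :
    R.IsS S (R.up S P s) := by
  refine ⟨fun j a z hz => ?_, fun i j z hz z' hz' θ h1 h2 h3 => ?_⟩
  · set e := chartAt (Cm d) (P (S.σ j z)) with hedef
    have he : e ∈ atlas (Cm d) F := chart_mem_atlas _ _
    have hs : P (S.σ j z) ∈ e.source := mem_chart_source _ _
    have h9 : (fun u => R.up S P s j u a) =ᶠ[𝓝 z] fun u =>
        (R.A (jp S P e j u)).mulVec (s e (e (P (S.σ j u)))) a := by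
      filter_upwards [(h.contσ hz).eventually (e.open_source.mem_nhds hs),
        isOpen_ball.mem_nhds hz] with u hu hu3
      rw [h.up_eq hc hu3 he hu]
    have h10 : ∀ b, DifferentiableAt ℂ (fun u => s e (e (P (S.σ j u))) b) z := by
      intro b
      have h11 : DifferentiableAt ℂ (fun v => s e v b) (e (P (S.σ j z))) :=
        (hc.hol e he b).differentiableAt (e.open_target.mem_nhds (e.map_source hs))
      exact DifferentiableAt.comp (g := fun v => s e v b) (f := fun u => e (P (S.σ j u))) z h11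
        (h.fwd j z hz e he hs).differentiableAt
    have h12 := R.diff (fun u => jp S P e j u) z fun k l =>
      (jac_entry (h.fwd j z hz e he hs) k l).differentiableAt
    exact ((diff_mulVec h12 h10 a).congr_of_eventuallyEq h9).differentiableWithinAt
  · set e := chartAt (Cm d) (P (S.σ j z')) with hedef
    have he : e ∈ atlas (Cm d) F := chart_mem_atlas _ _
    have hs' : P (S.σ j z') ∈ e.source := mem_chart_source _ _
    have h4 : S.σ i z = S.σ j z' := by
      have h5 := h3.self_of_nhds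
      rw [h2] at h5
      exact h5
    have hs : P (S.σ i z) ∈ e.source := by rw [h4]; exact hs'
    rw [h.up_eq hc hz he hs, h.up_eq hc hz' he hs', h.jp_sheet hz' he hs' h1 h2 h3, h4,
      Matrix.mulVec_mulVec, ← R.mul]

/-! ### Off `N` -/

/-- the Jacobian matrix of the inverse -/
theorem Mdf.jp_inv (h : Mdf S P N) {j : Fin S.N} {z : Cm d} (hz : z ∈ ball (0 : Cm d) 3)
    {e : Chart d F} (he : e ∈ atlas (Cm d) F) (hs : P (S.σ j z) ∈ e.source) {κ : Cm d → Cm d}
    (h1 : AnalyticAt ℂ κ (e (P (S.σ j z)))) (h2 : κ (e (P (S.σ j z))) = z)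
    (h4 : ∀ᶠ v in 𝓝 (e (P (S.σ j z))), P (S.σ j (κ v)) = e.symm v) :
    jp S P e j z * H64.TK.jac κ (e (P (S.σ j z))) = 1 := by
  have h5 : H64.TK.jac (fun v => e (P (S.σ j (κ v)))) (e (P (S.σ j z))) =
      H64.TK.jac (fun u => e (P (S.σ j u))) z * H64.TK.jac κ (e (P (S.σ j z))) :=
    jac_comp (η := fun u => e (P (S.σ j u))) h2 (h.fwd j z hz e he hs).differentiableAt
      h1.differentiableAt
  have h7 : (fun v => e (P (S.σ j (κ v)))) =ᶠ[𝓝 (e (P (S.σ j z)))] fun v => v := by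
    filter_upwards [h4, e.open_target.mem_nhds (e.map_source hs)] with v hv hvt
    rw [hv, e.right_inv hvt]
  rw [jac_congr h7, jac_id] at h5
  exact h5.symm

theorem Mdf.jp_ne (h : Mdf S P N) {j : Fin S.N} {z : Cm d} (hz : z ∈ ball (0 : Cm d) 3)
    (hN : P (S.σ j z) ∉ N) {e : Chart d F} (he : e ∈ atlas (Cm d) F)
    (hs : P (S.σ j z) ∈ e.source) : (jp S P e j z).det ≠ 0 := by
  obtain ⟨κ, h1, h2, h3⟩ := h.bwd j z hz hN e he hs
  have h7 := congrArg Matrix.det (h.jp_inv hz he hs h1 h2 h3)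
  rw [Matrix.det_one, Matrix.det_mul] at h7
  intro h8
  rw [h8, zero_mul] at h7
  exact one_ne_zero h7.symm

theorem inv_mul' {J : Matrix (Fin d) (Fin d) ℂ} (h : J.det ≠ 0) : J⁻¹ * J = 1 :=
  Matrix.nonsing_inv_mul J (isUnit_iff_ne_zero.2 h)

theorem mul_inv' {J : Matrix (Fin d) (Fin d) ℂ} (h : J.det ≠ 0) : J * J⁻¹ = 1 :=
  Matrix.mul_nonsing_inv J (isUnit_iff_ne_zero.2 h)

open Classical in
/-- the tensor on `F` given by a tensor on `E`, off `N` -/
def Rule.dn (R : Rule d ι) (S : Sheets d E K) (P : E → F) (s : Fin S.N → Cm d → ι → ℂ)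
    (e : Chart d F) (x : F) : ι → ℂ :=
  if h : ∃ q : Fin S.N × Cm d, q.2 ∈ ball (0 : Cm d) 3 ∧ P (S.σ q.1 q.2) = x then
    (R.A (jp S P e h.choose.1 h.choose.2)⁻¹).mulVec (s h.choose.1 h.choose.2) else 0

variable [Subsingleton K]

theorem Mdf.dn_eq (h : Mdf S P N) {s : Fin S.N → Cm d → ι → ℂ} (hc : R.IsS S s) {j : Fin S.N}
    {z : Cm d} (hz : z ∈ ball (0 : Cm d) 3) (hN : P (S.σ j z) ∉ N) {e : Chart d F}
    (he : e ∈ atlas (Cm d) F) (hs : P (S.σ j z) ∈ e.source) :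
    R.dn S P s e (P (S.σ j z)) = (R.A (jp S P e j z)⁻¹).mulVec (s j z) := by
  have hex : ∃ q : Fin S.N × Cm d, q.2 ∈ ball (0 : Cm d) 3 ∧ P (S.σ q.1 q.2) = P (S.σ j z) :=
    ⟨(j, z), hz, rfl⟩
  rw [Rule.dn, dif_pos hex]
  obtain ⟨hq3, hqP⟩ := hex.choose_spec
  set q := hex.choose with hq
  have hqs : S.σ q.1 q.2 = S.σ j z := h.inj _ _ hqP (by rw [hqP]; exact hN)
  obtain ⟨θ, h1, h2, h3⟩ := S.hol j q.1 z hz q.2 hq3 1 (by rw [one_smul, hqs])
  simp only [one_smul] at h3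
  have hs' : P (S.σ q.1 q.2) ∈ e.source := by rw [hqs]; exact hs
  have h4 := h.jp_sheet hq3 he hs' h1 h2 h3
  have h5 := hc.change j q.1 z hz q.2 hq3 θ h1 h2 h3
  have h6 : (H64.TK.jac θ z).det ≠ 0 := by
    intro h7
    have h8 := h.jp_ne hz hN he hs
    rw [h4, Matrix.det_mul, h7, mul_zero] at h8
    exact h8 rfl
  rw [h4, h5, Matrix.mulVec_mulVec, ← R.mul, Matrix.mul_inv_rev, ← Matrix.mul_assoc, mul_inv' h6,
    Matrix.one_mul]

/-- the local form of the tensor on `F ∖ N` -/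
theorem Mdf.dn_ev (h : Mdf S P N) {s : Fin S.N → Cm d → ι → ℂ} (hc : R.IsS S s)
    {e : Chart d F} (he : e ∈ atlas (Cm d) F) {v : Cm d} (hv : v ∈ e.target)
    (hN : e.symm v ∉ N) :
    ∃ (j : Fin S.N) (z : Cm d) (κ : Cm d → Cm d), z ∈ ball (0 : Cm d) 3 ∧
      P (S.σ j z) = e.symm v ∧ AnalyticAt ℂ κ v ∧ κ v = z ∧
      ∀ᶠ v' in 𝓝 v, R.dn S P s e (e.symm v') = (R.A (H64.TK.jac κ v')).mulVec (s j (κ v')) := by
  obtain ⟨ε, hε⟩ := h.surj _ hN
  have hz := pt_mem S ε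
  have hσ := pt_spec S ε
  have hx : P (S.σ (pt S ε).1 (pt S ε).2) = e.symm v := by
    rw [hσ, hε]
  have hs : P (S.σ (pt S ε).1 (pt S ε).2) ∈ e.source := by rw [hx]; exact e.map_target hv
  have hev : e (P (S.σ (pt S ε).1 (pt S ε).2)) = v := by rw [hx, e.right_inv hv]
  obtain ⟨κ, h1, h2, h3⟩ := h.bwd _ _ hz (by rw [hx]; exact hN) e he hs
  rw [hev] at h1 h2 h3
  have h5 : ∀ᶠ v' in 𝓝 v, κ v' ∈ ball (0 : Cm d) 3 := by
    refine h1.continuousAt.eventually (p := fun y => y ∈ ball (0 : Cm d) 3) ?_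
    rw [h2]
    exact isOpen_ball.mem_nhds hz
  have h6 : ∀ᶠ v' in 𝓝 v, e.symm v' ∉ N :=
    (e.continuousAt_symm hv).eventually (h.small.1.isOpen_compl.mem_nhds hN)
  refine ⟨(pt S ε).1, (pt S ε).2, κ, hz, hx, h1, h2, ?_⟩
  filter_upwards [h3.eventually_nhds, h5, h6, e.open_target.mem_nhds hv,
    h1.eventually_analyticAt] with v' a3 a5 aN a6 a9
  have a3' := a3.self_of_nhds
  have a7 : P (S.σ (pt S ε).1 (κ v')) ∈ e.source := by
    rw [a3']
    exact e.map_target a6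
  have a8 := h.dn_eq hc a5 (by rw [a3']; exact aN) he a7
  have a4 : e (P (S.σ (pt S ε).1 (κ v'))) = v' := by rw [a3', e.right_inv a6]
  have a10 := h.jp_inv a5 he a7 (κ := κ) (by rw [a4]; exact a9) (by rw [a4])
    (by rw [a4]; exact a3)
  rw [a4] at a10
  rw [a3'] at a8
  rw [a8, Matrix.inv_eq_right_inv a10]

/-- holomorphic off `N` -/
theorem Mdf.dn_hol (h : Mdf S P N) {s : Fin S.N → Cm d → ι → ℂ} (hc : R.IsS S s)
    {e : Chart d F} (he : e ∈ atlas (Cm d) F) {x : F} (hx : x ∈ e.source) (hN : x ∉ N) (a : ι) :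
    HolAt (Cm d) (fun x => R.dn S P s e x a) x := by
  have hV : IsOpen (e.target ∩ e.symm ⁻¹' Nᶜ) :=
    e.isOpen_inter_preimage_symm h.small.1.isOpen_compl
  refine holAt_of he hx hV ⟨e.map_source hx, ?_⟩ fun v hv => ?_
  · show e.symm (e x) ∉ N
    rw [e.left_inv hx]
    exact hN
  · obtain ⟨j, z, κ, hz, -, h1, h2, h3⟩ := h.dn_ev hc he hv.1 hv.2
    have h4 : (fun v' => R.dn S P s e (e.symm v') a) =ᶠ[𝓝 v] fun v' =>
        (R.A (H64.TK.jac κ v')).mulVec (s j (κ v')) a := by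
      filter_upwards [h3] with v' hv'
      rw [hv']
    have h7 : ∀ b, DifferentiableAt ℂ (fun v' => s j (κ v') b) v := by
      intro b
      have h8 : DifferentiableAt ℂ (fun y => s j y b) (κ v) := by
        rw [h2]
        exact (hc.hol _ b).differentiableAt (isOpen_ball.mem_nhds hz)
      exact DifferentiableAt.comp (g := fun y => s j y b) (f := κ) v h8 h1.differentiableAt
    have h9 := R.diff (fun v' => H64.TK.jac κ v') v fun k l =>
      (jac_entry h1 k l).differentiableAt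
    exact (diff_mulVec h9 h7 a).congr_of_eventuallyEq h4

/-- **down**: all the tensors of `E` are pull-backs of tensors of `F`. -/
theorem Mdf.down [T2Space F] (har : HartogsStmt) (h : Mdf S P N) {s : Fin S.N → Cm d → ι → ℂ}
    (hc : R.IsS S s) : ∃ t : Chart d F → Cm d → ι → ℂ, R.IsF t ∧
      (∀ e ∈ atlas (Cm d) F, ∀ a, ∀ v ∈ e.target, AnalyticAt ℂ (fun v => t e v a) v) ∧
      (∀ e ∈ atlas (Cm d) F, ∀ v ∈ e.target, e.symm v ∉ N → t e v = R.dn S P s e (e.symm v)) ∧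
      ∀ j, ∀ z ∈ ball (0 : Cm d) 3, s j z = R.up S P t j z := by
  have hdense : Dense Nᶜ := H383.Gen.dense_compl_small (H308.Bir.small_of_small2 h.small)
  have hex : ∀ (e : Chart d F) (a : ι), ∃ g : F → ℂ, e ∈ atlas (Cm d) F →
      (∀ x ∈ e.source, HolAt (Cm d) g x) ∧
      ∀ x ∈ e.source, x ∉ N → g x = R.dn S P s e x a := by
    intro e a
    by_cases he : e ∈ atlas (Cm d) F
    · obtain ⟨g, g1, g2⟩ := har d F N e.source (fun x => R.dn S P s e x a) h.small e.open_source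
        fun x hx hN => h.dn_hol hc he hx hN a
      exact ⟨g, fun _ => ⟨g1, g2⟩⟩
    · exact ⟨fun _ => 0, fun h' => absurd h' he⟩
  choose g hg using hex
  have han : ∀ e ∈ atlas (Cm d) F, ∀ a, ∀ v ∈ e.target,
      AnalyticAt ℂ (fun v => g e a (e.symm v)) v := fun e he a v hv =>
    diff_of_holAt he hv ((hg e a he).1 _ (e.map_target hv))
  have hF : R.IsF fun e v a => g e a (e.symm v) := by
    refine ⟨fun e he a v hv => (han e he a v hv).differentiableAt.differentiableWithinAt,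
      fun e he e' he' x hx => ?_⟩
    funext a
    have key : g e a x = ∑ b, R.A (H64.TK.jac (fun u => e' (e.symm u)) (e x)) a b * g e' b x := by
      have hc1 : ContinuousAt (g e a) x :=
        ((hg e a he).1 x hx.1 : ContMDiffAt 𝓘(ℂ, Cm d) 𝓘(ℂ, ℂ) ω (g e a) x).continuousAt
      have hc2 : ContinuousAt (fun x => ∑ b,
          R.A (H64.TK.jac (fun u => e' (e.symm u)) (e x)) a b * g e' b x) x := by
        have h1 : ∀ b, ContinuousAt (g e' b) x := fun b =>
          ((hg e' b he').1 x hx.2 : ContMDiffAt 𝓘(ℂ, Cm d) 𝓘(ℂ, ℂ) ω (g e' b) x).continuousAt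
        have h2 : ∀ b, ContinuousAt
            (fun v => R.A (H64.TK.jac (fun u => e' (e.symm u)) v) a b) (e x) := fun b =>
          (R.diff _ _ (fun k l => (jac_entry (change_an he he' hx.1 hx.2) k l).differentiableAt)
            a b).continuousAt
        have h3 : ∀ b, ContinuousAt
            (fun x => R.A (H64.TK.jac (fun u => e' (e.symm u)) (e x)) a b) x := fun b =>
          ContinuousAt.comp (g := fun v => R.A (H64.TK.jac (fun u => e' (e.symm u)) v) a b)
            (h2 b) (e.continuousAt hx.1)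
        exact tendsto_finsetSum _ fun b _ => (h3 b).mul (h1 b)
      refine eq_of_freq hc1 hc2 ?_
      have h4 : ∃ᶠ y in 𝓝 x, y ∈ Nᶜ := mem_closure_iff_frequently.1 (hdense x)
      have h5 : ∀ᶠ y in 𝓝 x, y ∈ e.source ∩ e'.source :=
        (e.open_source.inter e'.open_source).mem_nhds hx
      refine (h4.and_eventually h5).mono ?_
      rintro y ⟨hyN, hy⟩
      obtain ⟨ε, rfl⟩ := h.surj y hyN
      obtain ⟨j, z, hz, rfl⟩ : ∃ (j : Fin S.N) (z : Cm d), z ∈ ball (0 : Cm d) 3 ∧ S.σ j z = ε :=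
        ⟨_, _, pt_mem S ε, pt_spec S ε⟩
      have b1 := (hg e a he).2 _ hy.1 hyN
      have b2 : ∀ b, g e' b (P (S.σ j z)) = R.dn S P s e' (P (S.σ j z)) b := fun b =>
        (hg e' b he').2 _ hy.2 hyN
      simp only [b1, b2]
      rw [h.dn_eq hc hz hyN he hy.1, h.dn_eq hc hz hyN he' hy.2]
      set T := H64.TK.jac (fun u => e' (e.symm u)) (e (P (S.σ j z))) with hT
      have b3 := h.jp_chart hz he hy.1 he' hy.2
      have b4 := h.jp_ne hz hyN he' hy.2
      have hTd : T.det ≠ 0 := by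
        intro h7
        rw [b3, Matrix.det_mul, h7, zero_mul] at b4
        exact b4 rfl
      show _ = (R.A T).mulVec ((R.A (jp S P e' j z)⁻¹).mulVec (s j z)) a
      rw [b3, Matrix.mulVec_mulVec, ← R.mul, Matrix.mul_inv_rev, Matrix.mul_assoc, inv_mul' hTd,
        Matrix.mul_one]
    show g e a (e.symm (e x)) = ∑ b, R.A _ a b * g e' b (e'.symm (e' x))
    rw [e.left_inv hx.1, e'.left_inv hx.2]
    exact key
  refine ⟨fun e v a => g e a (e.symm v), hF, han, fun e he v hv hN => ?_, fun j z hz => ?_⟩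
  · funext a
    exact (hg e a he).2 _ (e.map_target hv) hN
  · funext a
    have hup := h.up_isS hF
    have c1 : ContinuousAt (fun z => s j z a) z :=
      ((hc.hol j a).differentiableAt (isOpen_ball.mem_nhds hz)).continuousAt
    have c2 : ContinuousAt (fun z => R.up S P (fun e v a => g e a (e.symm v)) j z a) z :=
      ((hup.hol j a).differentiableAt (isOpen_ball.mem_nhds hz)).continuousAt
    refine eq_of_freq (f := fun z => s j z a)
      (g := fun z => R.up S P (fun e v a => g e a (e.symm v)) j z a) c1 c2 ?_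
    have h4 : ∃ᶠ ε in 𝓝 (S.σ j z), ε ∈ (P ⁻¹' N)ᶜ := mem_closure_iff_frequently.1 (h.dense _)
    rw [← S.map_nhds j z hz, frequently_map] at h4
    refine (h4.and_eventually (isOpen_ball.mem_nhds hz)).mono ?_
    rintro u ⟨huN, hu⟩
    have huN' : P (S.σ j u) ∉ N := huN
    set e := chartAt (Cm d) (P (S.σ j u)) with hedef
    have he : e ∈ atlas (Cm d) F := chart_mem_atlas _ _
    have hs : P (S.σ j u) ∈ e.source := mem_chart_source _ _
    rw [h.up_eq hF hu he hs]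
    have b1 : (fun a => g e a (e.symm (e (P (S.σ j u))))) =
        (R.A (jp S P e j u)⁻¹).mulVec (s j u) := by
      rw [← h.dn_eq hc hu huN' he hs]
      funext b
      rw [e.left_inv hs]
      exact (hg e b he).2 _ hs huN'
    rw [b1, Matrix.mulVec_mulVec, ← R.mul, inv_mul' (h.jp_ne hu huN' he hs), R.one,
      Matrix.one_mulVec]

end rules

end Vale.Agent.P281.H22.NC
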